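import Vale.Agent.P091.Sqrt.Main

/-!
# P091: almost everywhere divergence in the classes below `L (log L) ^ (1 / 2)`
-/

namespace Vale.Agent.Results.P091.DivergenceBelowSqrtLog

open MeasureTheory Filter
open Vale.Agent.P091.Sqrt

theorem result (φ : ℝ → ℝ) (hmono : MonotoneOn φ (Set.Ici 0)) (hnn : ∀ u, 0 ≤ u → 0 ≤ φ u)
    (ho : φ =o[atTop] fun u => u * Real.sqrt (Real.log u)) :
    ∃ f : AddCircle (2 * Real.pi) → ℂ, Integrable f AddCircle.haarAddCircle ∧
      Integrable (fun x => φ ‖f x‖) AddCircle.haarAddCircle ∧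
      ∀ᵐ x ∂AddCircle.haarAddCircle, ∀ C : ℝ, ∃ N : ℕ, C < ‖partialSum f N x‖ :=
  diverges φ hmono hnn ho

end Vale.Agent.Results.P091.DivergenceBelowSqrtLog
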